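import Vale.Agent.P258.R2.H394.Count
import Vale.Agent.P258.R2.H394.Eight

set_option linter.all false

/-!
The Montesinos knot of the second pattern, with the surgeries of slopes `2` and `-2` separated by
`SL(2, 8)`.
-/

namespace Vale.Agent.P258

/-- The knot `K` of the second pattern, the Montesinos knot `M(-2/19, 1/5, -2/21)`: the diagram
`patternB` without the component `E`. -/
def montesinos : Diagram where
  n := 29
  next a := Fin.ofNat 29 (a.val + 1)
  above a := Fin.ofNat 29
    ([24, 23, 10, 9, 8, 7, 27, 5, 4, 3, 2, 21, 20, 19, 18, 17, 0, 15, 14, 13, 12, 11, 2, 1, 0, 6, 7,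
    6, 16].getD a.val 0)
  sgn a := if a.val ∈ [0, 1, 6, 22, 23, 24, 26, 27] then -1 else 1

/-- An arc of the Montesinos knot. -/
def montesinosK : Fin montesinos.n := Fin.ofNat 29 0

namespace Second

instance : Fact (Nat.Prime 29) := ⟨by norm_num⟩

def nextM : Fin 29 → Fin 29 :=
  ![1, 2, 3, 4, 5, 6, 7, 8, 9, 10, 11, 12, 13, 14, 15, 16, 17, 18, 19, 20, 21, 22, 23, 24, 25, 26,
    27, 28, 0]

def aboveM : Fin 29 → Fin 29 :=
  ![24, 23, 10, 9, 8, 7, 27, 5, 4, 3, 2, 21, 20, 19, 18, 17, 0, 15, 14, 13, 12, 11, 2, 1, 0, 6, 7,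
    6, 16]

def sgnM : Fin 29 → ℤ :=
  ![-1, -1, 1, 1, 1, 1, -1, 1, 1, 1, 1, 1, 1, 1, 1, 1, 1, 1, 1, 1, 1, 1, -1, -1, -1, 1, -1, -1, 1]

theorem nextM_eq (a : Fin 29) : @Eq (Fin 29) (montesinos.next a) (nextM a) := by
  fin_cases a <;> rfl
theorem aboveM_eq (a : Fin 29) : @Eq (Fin 29) (montesinos.above a) (aboveM a) := by
  fin_cases a <;> rfl
theorem sgnM_eq (a : Fin 29) : ((montesinos.sgn a : ℤˣ) : ℤ) = sgnM a := by fin_cases a <;> rfl

/-- The conjugation relations of a coloured Montesinos knot. -/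
structure KnotRel (u : Fin 29 → G) : Prop where
  f0 : u 0 = (u 24)⁻¹ * u 1 * u 24
  f1 : u 1 = (u 23)⁻¹ * u 2 * u 23
  f2 : u 3 = (u 10)⁻¹ * u 2 * u 10
  f3 : u 4 = (u 9)⁻¹ * u 3 * u 9
  f4 : u 5 = (u 8)⁻¹ * u 4 * u 8
  f5 : u 6 = (u 7)⁻¹ * u 5 * u 7
  f6 : u 6 = (u 27)⁻¹ * u 7 * u 27
  f7 : u 8 = (u 5)⁻¹ * u 7 * u 5
  f8 : u 9 = (u 4)⁻¹ * u 8 * u 4
  f9 : u 10 = (u 3)⁻¹ * u 9 * u 3
  f10 : u 11 = (u 2)⁻¹ * u 10 * u 2
  f11 : u 12 = (u 21)⁻¹ * u 11 * u 21
  f12 : u 13 = (u 20)⁻¹ * u 12 * u 20
  f13 : u 14 = (u 19)⁻¹ * u 13 * u 19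
  f14 : u 15 = (u 18)⁻¹ * u 14 * u 18
  f15 : u 16 = (u 17)⁻¹ * u 15 * u 17
  f16 : u 17 = (u 0)⁻¹ * u 16 * u 0
  f17 : u 18 = (u 15)⁻¹ * u 17 * u 15
  f18 : u 19 = (u 14)⁻¹ * u 18 * u 14
  f19 : u 20 = (u 13)⁻¹ * u 19 * u 13
  f20 : u 21 = (u 12)⁻¹ * u 20 * u 12
  f21 : u 22 = (u 11)⁻¹ * u 21 * u 11
  f22 : u 22 = (u 2)⁻¹ * u 23 * u 2
  f23 : u 23 = (u 1)⁻¹ * u 24 * u 1
  f24 : u 24 = (u 0)⁻¹ * u 25 * u 0
  f25 : u 26 = (u 6)⁻¹ * u 25 * u 6
  f26 : u 26 = (u 7)⁻¹ * u 27 * u 7
  f27 : u 27 = (u 6)⁻¹ * u 28 * u 6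
  f28 : u 0 = (u 16)⁻¹ * u 28 * u 16

theorem knotRel_of_isCol (u : Fin 29 → G) (h : montesinos.IsCol u) : KnotRel u := by
  have g : ∀ a : Fin 29, u (nextM a) = u (aboveM a) ^ (-(sgnM a : ℤ)) * u a *
      u (aboveM a) ^ (sgnM a : ℤ) := by
    intro a
    rw [← nextM_eq, ← aboveM_eq, ← sgnM_eq]
    exact h a
  constructor
  · have := g 0; simp [nextM, aboveM, sgnM] at this; rw [this]; group
  · have := g 1; simp [nextM, aboveM, sgnM] at this; rw [this]; group
  · have := g 2; simp [nextM, aboveM, sgnM] at this; exact this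
  · have := g 3; simp [nextM, aboveM, sgnM] at this; exact this
  · have := g 4; simp [nextM, aboveM, sgnM] at this; exact this
  · have := g 5; simp [nextM, aboveM, sgnM] at this; exact this
  · have := g 6; simp [nextM, aboveM, sgnM] at this; rw [this]; group
  · have := g 7; simp [nextM, aboveM, sgnM] at this; exact this
  · have := g 8; simp [nextM, aboveM, sgnM] at this; exact this
  · have := g 9; simp [nextM, aboveM, sgnM] at this; exact this
  · have := g 10; simp [nextM, aboveM, sgnM] at this; exact this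
  · have := g 11; simp [nextM, aboveM, sgnM] at this; exact this
  · have := g 12; simp [nextM, aboveM, sgnM] at this; exact this
  · have := g 13; simp [nextM, aboveM, sgnM] at this; exact this
  · have := g 14; simp [nextM, aboveM, sgnM] at this; exact this
  · have := g 15; simp [nextM, aboveM, sgnM] at this; exact this
  · have := g 16; simp [nextM, aboveM, sgnM] at this; exact this
  · have := g 17; simp [nextM, aboveM, sgnM] at this; exact this
  · have := g 18; simp [nextM, aboveM, sgnM] at this; exact this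
  · have := g 19; simp [nextM, aboveM, sgnM] at this; exact this
  · have := g 20; simp [nextM, aboveM, sgnM] at this; exact this
  · have := g 21; simp [nextM, aboveM, sgnM] at this; exact this
  · have := g 22; simp [nextM, aboveM, sgnM] at this; rw [this]; group
  · have := g 23; simp [nextM, aboveM, sgnM] at this; rw [this]; group
  · have := g 24; simp [nextM, aboveM, sgnM] at this; rw [this]; group
  · have := g 25; simp [nextM, aboveM, sgnM] at this; exact this
  · have := g 26; simp [nextM, aboveM, sgnM] at this; rw [this]; group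
  · have := g 27; simp [nextM, aboveM, sgnM] at this; rw [this]; group
  · have := g 28; simp [nextM, aboveM, sgnM] at this; exact this

theorem isCol_of_knotRel (u : Fin 29 → G) (h : KnotRel u) : montesinos.IsCol u := by
  have g : ∀ a : Fin 29, u (nextM a) = u (aboveM a) ^ (-(sgnM a : ℤ)) * u a *
      u (aboveM a) ^ (sgnM a : ℤ) := by
    intro a
    fin_cases a
    · have := h.f0; simp [nextM, aboveM, sgnM]; rw [this]; group
    · have := h.f1; simp [nextM, aboveM, sgnM]; rw [this]; group
    · simpa [nextM, aboveM, sgnM] using h.f2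
    · simpa [nextM, aboveM, sgnM] using h.f3
    · simpa [nextM, aboveM, sgnM] using h.f4
    · simpa [nextM, aboveM, sgnM] using h.f5
    · have := h.f6; simp [nextM, aboveM, sgnM]; rw [this]; group
    · simpa [nextM, aboveM, sgnM] using h.f7
    · simpa [nextM, aboveM, sgnM] using h.f8
    · simpa [nextM, aboveM, sgnM] using h.f9
    · simpa [nextM, aboveM, sgnM] using h.f10
    · simpa [nextM, aboveM, sgnM] using h.f11
    · simpa [nextM, aboveM, sgnM] using h.f12
    · simpa [nextM, aboveM, sgnM] using h.f13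
    · simpa [nextM, aboveM, sgnM] using h.f14
    · simpa [nextM, aboveM, sgnM] using h.f15
    · simpa [nextM, aboveM, sgnM] using h.f16
    · simpa [nextM, aboveM, sgnM] using h.f17
    · simpa [nextM, aboveM, sgnM] using h.f18
    · simpa [nextM, aboveM, sgnM] using h.f19
    · simpa [nextM, aboveM, sgnM] using h.f20
    · simpa [nextM, aboveM, sgnM] using h.f21
    · have := h.f22; simp [nextM, aboveM, sgnM]; rw [this]; group
    · have := h.f23; simp [nextM, aboveM, sgnM]; rw [this]; group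
    · have := h.f24; simp [nextM, aboveM, sgnM]; rw [this]; group
    · simpa [nextM, aboveM, sgnM] using h.f25
    · have := h.f26; simp [nextM, aboveM, sgnM]; rw [this]; group
    · have := h.f27; simp [nextM, aboveM, sgnM]; rw [this]; group
    · simpa [nextM, aboveM, sgnM] using h.f28
  intro a
  change Fin 29 at a
  have h1 := g a
  rw [← nextM_eq a, ← aboveM_eq a, ← sgnM_eq a] at h1
  exact h1

theorem periodM_K : Function.minimalPeriod montesinos.next montesinosK = 29 := by
  apply Function.minimalPeriod_eq_prime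
  · decide
  · decide

theorem walkM_K : montesinos.walk montesinosK =
    ([0, 1, 2, 3, 4, 5, 6, 7, 8, 9, 10, 11, 12, 13, 14, 15, 16, 17, 18, 19, 20, 21, 22, 23, 24,
      25, 26, 27, 28] : List (Fin 29)) := by
  unfold Diagram.walk
  rw [periodM_K]
  rfl

theorem compM_K (b : Fin 29) : montesinos.SameComponent montesinosK b := by
  refine ⟨b.val, ?_⟩
  fin_cases b <;> rfl

theorem montesinos_isKnot : montesinos.IsKnot := by
  intro a b
  have h : ∀ a : Fin 29, montesinos.next^[29 - a.val] a = montesinosK := by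
    intro a
    fin_cases a <;> rfl
  obtain ⟨j, hj⟩ := compM_K b
  exact ⟨j + (29 - a.val), by rw [Function.iterate_add_apply, h a, hj]⟩

theorem writheM_K : montesinos.selfWrithe montesinosK = 13 := by
  unfold Diagram.selfWrithe
  rw [walkM_K]
  have h : ∀ b : Fin 29, @decide (montesinos.SameComponent montesinosK (montesinos.above b))
      (Classical.propDecidable _) = true := by
    intro b
    simp only [decide_eq_true_eq]
    exact compM_K _
  have h2 : (fun b : Fin 29 => @decide (montesinos.SameComponent montesinosK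
      (montesinos.above b)) (Classical.propDecidable _)) = fun _ => true := funext h
  erw [h2]
  decide

theorem arcM_term (u : Fin 29 → G) (b : Fin 29) :
    u (montesinos.above b) ^ ((montesinos.sgn b : ℤˣ) : ℤ) = u (aboveM b) ^ (sgnM b : ℤ) := by
  rw [aboveM_eq, sgnM_eq]

/-- The value of the longitude. -/
def lamM (u : Fin 29 → G) : G := (((((((((((((((((((((((((((((u 24)⁻¹ * (u 23)⁻¹) * u 10) * u 9)
    * u 8) * u 7) * (u 27)⁻¹) * u 5) * u 4) * u 3) * u 2) * u 21) * u 20) * u 19) * u 18) * u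
    17) * u 0) * u 15) * u 14) * u 13) * u 12) * u 11) * (u 2)⁻¹) * (u 1)⁻¹) * (u 0)⁻¹) * u 6) *
    (u 7)⁻¹) * (u 6)⁻¹) * u 16) * u 0 ^ (-(13 : ℤ))

theorem lonValM_K (u : Fin 29 → G) : montesinos.lonVal u montesinosK = lamM u := by
  have h : (fun b : Fin 29 => u (montesinos.above b) ^ ((montesinos.sgn b : ℤˣ) : ℤ)) =
      fun b => u (aboveM b) ^ (sgnM b : ℤ) := funext (arcM_term u)
  have h1 : (List.map (fun b : Fin 29 => u (montesinos.above b) ^ ((montesinos.sgn b : ℤˣ) : ℤ))
      [0, 1, 2, 3, 4, 5, 6, 7, 8, 9, 10, 11, 12, 13, 14, 15, 16, 17, 18, 19, 20, 21, 22, 23, 24,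
        25, 26, 27, 28]).prod =
      (u 24 ^ (-1 : ℤ) * (u 23 ^ (-1 : ℤ) * (u 10 ^ (1 : ℤ) * (u 9 ^ (1 : ℤ) * (u 8 ^ (1 : ℤ) * (u 7 ^
        (1 : ℤ) * (u 27 ^ (-1 : ℤ) * (u 5 ^ (1 : ℤ) * (u 4 ^ (1 : ℤ) * (u 3 ^ (1 : ℤ) * (u 2 ^
        (1 : ℤ) * (u 21 ^ (1 : ℤ) * (u 20 ^ (1 : ℤ) * (u 19 ^ (1 : ℤ) * (u 18 ^ (1 : ℤ) * (u 17
        ^ (1 : ℤ) * (u 0 ^ (1 : ℤ) * (u 15 ^ (1 : ℤ) * (u 14 ^ (1 : ℤ) * (u 13 ^ (1 : ℤ) * (u 12
        ^ (1 : ℤ) * (u 11 ^ (1 : ℤ) * (u 2 ^ (-1 : ℤ) * (u 1 ^ (-1 : ℤ) * (u 0 ^ (-1 : ℤ) * (u 6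
        ^ (1 : ℤ) * (u 7 ^ (-1 : ℤ) * (u 6 ^ (-1 : ℤ) * (u 16 ^ (1 : ℤ) *
        (1)))))))))))))))))))))))))))))) := by
    rw [h]
    rfl
  have h3 := lonVal_eq (D := montesinos) u montesinosK _ _ _ walkM_K writheM_K h1
  have h2 : u montesinosK = u 0 := rfl
  rw [h2] at h3
  rw [h3]
  simp only [lamM, zpow_one, zpow_neg_one, mul_one, mul_assoc]

/-- The colouring of the second pattern given by a colouring of the knot, with the value 1 on
`E`. -/
def lift33 (u : Fin 29 → G) : Fin 33 → G :=
  ![u 0, u 1, u 2, u 2, u 3, u 4, u 5, u 6, u 7, u 8, u 9, u 10, u 11, u 12, u 13, u 14, u 15, u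
    16, u 17, u 18, u 19, u 20, u 21, u 22, u 22, u 23, u 24, u 25, u 26, u 27, u 28, 1, 1]

theorem patRel_lift (u : Fin 29 → G) (h : KnotRel u) : PatRel (lift33 u) where
  f0 := by simpa [lift33] using h.f0
  f1 := by simpa [lift33] using h.f1
  f2 := by simp [lift33]
  f3 := by simpa [lift33] using h.f2
  f4 := by simpa [lift33] using h.f3
  f5 := by simpa [lift33] using h.f4
  f6 := by simpa [lift33] using h.f5
  f7 := by simpa [lift33] using h.f6
  f8 := by simpa [lift33] using h.f7
  f9 := by simpa [lift33] using h.f8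
  f10 := by simpa [lift33] using h.f9
  f11 := by simpa [lift33] using h.f10
  f12 := by simpa [lift33] using h.f11
  f13 := by simpa [lift33] using h.f12
  f14 := by simpa [lift33] using h.f13
  f15 := by simpa [lift33] using h.f14
  f16 := by simpa [lift33] using h.f15
  f17 := by simpa [lift33] using h.f16
  f18 := by simpa [lift33] using h.f17
  f19 := by simpa [lift33] using h.f18
  f20 := by simpa [lift33] using h.f19
  f21 := by simpa [lift33] using h.f20
  f22 := by simpa [lift33] using h.f21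
  f23 := by simp [lift33]
  f24 := by simpa [lift33] using h.f22
  f25 := by simpa [lift33] using h.f23
  f26 := by simpa [lift33] using h.f24
  f27 := by simpa [lift33] using h.f25
  f28 := by simpa [lift33] using h.f26
  f29 := by simpa [lift33] using h.f27
  f30 := by simpa [lift33] using h.f28
  f31 := by simp [lift33]
  f32 := by simp [lift33]

theorem lam_lift (u : Fin 29 → G) : lamB (lift33 u) = lamM u := by
  simp [lamB, lamM, lift33]

theorem keyM (u : Fin 29 → G) (h : montesinos.IsCol u)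
    (hl : u 0 * u 0 = montesinos.lonVal u montesinosK) : u 0 * u 0 = 1 := by
  have hr := knotRel_of_isCol u h
  have hc : patternB.IsCol (lift33 u) := isCol_of_patRel _ (patRel_lift u hr)
  have h0 : lift33 u 0 = u 0 := rfl
  have h31 : lift33 u 31 = 1 := rfl
  have key := keyR (lift33 u) hc (fun _ => h31) (by
    rw [lonVal_K, lam_lift, h0, hl, lonValM_K])
  rwa [h0] at key

/-- A colouring of the knot with `μ ^ 2 * λ = 1`, `μ ^ 2 ≠ 1`. -/
def colM (i : Fin 29) : G :=
  toG ([3383, 337, 1147, 169, 848, 2724, 584, 3068, 2988, 1938, 992, 73, 2932, 1307, 3383, 3918,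
    3694, 584, 2477, 1762, 4006, 3183, 3407, 2652, 169, 2213, 824, 337, 2477].getD i.val 0)

theorem colM_rel : KnotRel colM where
  f0 := code_inj (by rw [code_cj]; decide +kernel)
  f1 := code_inj (by rw [code_cj]; decide +kernel)
  f2 := code_inj (by rw [code_cj]; decide +kernel)
  f3 := code_inj (by rw [code_cj]; decide +kernel)
  f4 := code_inj (by rw [code_cj]; decide +kernel)
  f5 := code_inj (by rw [code_cj]; decide +kernel)
  f6 := code_inj (by rw [code_cj]; decide +kernel)
  f7 := code_inj (by rw [code_cj]; decide +kernel)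
  f8 := code_inj (by rw [code_cj]; decide +kernel)
  f9 := code_inj (by rw [code_cj]; decide +kernel)
  f10 := code_inj (by rw [code_cj]; decide +kernel)
  f11 := code_inj (by rw [code_cj]; decide +kernel)
  f12 := code_inj (by rw [code_cj]; decide +kernel)
  f13 := code_inj (by rw [code_cj]; decide +kernel)
  f14 := code_inj (by rw [code_cj]; decide +kernel)
  f15 := code_inj (by rw [code_cj]; decide +kernel)
  f16 := code_inj (by rw [code_cj]; decide +kernel)
  f17 := code_inj (by rw [code_cj]; decide +kernel)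
  f18 := code_inj (by rw [code_cj]; decide +kernel)
  f19 := code_inj (by rw [code_cj]; decide +kernel)
  f20 := code_inj (by rw [code_cj]; decide +kernel)
  f21 := code_inj (by rw [code_cj]; decide +kernel)
  f22 := code_inj (by rw [code_cj]; decide +kernel)
  f23 := code_inj (by rw [code_cj]; decide +kernel)
  f24 := code_inj (by rw [code_cj]; decide +kernel)
  f25 := code_inj (by rw [code_cj]; decide +kernel)
  f26 := code_inj (by rw [code_cj]; decide +kernel)
  f27 := code_inj (by rw [code_cj]; decide +kernel)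
  f28 := code_inj (by rw [code_cj]; decide +kernel)

theorem colM_isCol : montesinos.IsCol colM := isCol_of_knotRel _ colM_rel

theorem colM_K : colM 0 * colM 0 * montesinos.lonVal colM montesinosK = 1 := by
  rw [lonValM_K]
  apply code_inj
  unfold lamM
  rw [code_mul, code_mul (_ : G) (colM 0 ^ (-(13 : ℤ))), code_inv13]
  simp only [code_mul, code_inv, code_one]
  decide +kernel

theorem colM_sq : colM 0 * colM 0 ≠ 1 := by
  intro h
  have := congrArg code h
  rw [code_mul, code_one] at this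
  revert this
  decide +kernel

/-- The surgeries of slopes `2` and `-2` on the Montesinos knot have different numbers of
homomorphisms to `SL(2, 8)`. -/
theorem montesinos_homCount :
    homCount G montesinos montesinosK 2 1 ≠ homCount G montesinos montesinosK (-2) 1 := by
  have h : ∀ p : ℤ, homCount G montesinos montesinosK p 1 =
      {σ : Fin montesinos.n → G | montesinos.IsCol σ ∧
        σ montesinosK ^ p * montesinos.lonVal σ montesinosK = 1}.ncard := by
    intro p
    unfold homCount
    rw [card_hom_eq, ← Nat.card_coe_set_eq]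
    refine Nat.card_congr (Equiv.subtypeEquivRight fun σ => ?_)
    rw [sat_surgery_iff]
    constructor
    · rintro ⟨h1, -, h3⟩
      exact ⟨h1, h3⟩
    · rintro ⟨h1, h3⟩
      exact ⟨h1, fun c hc => hc.elim, h3⟩
  rw [h, h]
  refine (Set.ncard_lt_ncard ?_ (Set.toFinite _)).ne'
  have key : ∀ σ : Fin montesinos.n → G, montesinos.IsCol σ →
      σ montesinosK ^ (-2 : ℤ) * montesinos.lonVal σ montesinosK = 1 →
      σ montesinosK * σ montesinosK = 1 := by
    intro σ h1 h2
    refine keyM σ h1 ?_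
    have h7 : σ montesinosK * σ montesinosK *
        (σ montesinosK ^ (-2 : ℤ) * montesinos.lonVal σ montesinosK) =
        montesinos.lonVal σ montesinosK := by group
    change σ montesinosK * σ montesinosK = _
    rw [← h7, h2, mul_one]
  constructor
  · rintro σ ⟨h1, h2⟩
    have hsq := key σ h1 h2
    have e1 : σ montesinosK ^ (2 : ℤ) = 1 := by rw [zpow_two, hsq]
    have e2 : σ montesinosK ^ (-2 : ℤ) = 1 := by rw [zpow_neg, e1, inv_one]
    refine ⟨h1, ?_⟩
    rw [e1]
    rwa [e2] at h2
  · intro hsub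
    have h1 : (colM : Fin montesinos.n → G) ∈ {σ : Fin montesinos.n → G | montesinos.IsCol σ ∧
        σ montesinosK ^ (2 : ℤ) * montesinos.lonVal σ montesinosK = 1} := by
      refine ⟨colM_isCol, ?_⟩
      rw [zpow_two]
      exact colM_K
    obtain ⟨h2, h3⟩ := hsub h1
    exact colM_sq (key _ h2 h3)

end Second

theorem montesinos_class : SeparatesSplitClass 126 montesinos montesinosK 2 (-2) :=
  separatesSplitClass_of_homCount (N := 126) Second.G_pow montesinos montesinosK 2 (-2)
    Second.montesinos_homCount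

end Vale.Agent.P258
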