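import Vale.Agent.P258.R2.H394.Mirror
import Vale.Agent.P258.R2.H394.Eight

set_option linter.all false

/-!
The split link formed by the Montesinos knot `K` of the second pattern and an unknotted circle.
-/

namespace Vale.Agent.P258

/-- The split link `K ∪ O`: the knot `K` of the second pattern (arcs `0, ..., 28`, the diagram of
`patternB` without `E`) and an unlinked circle `O` with one kink (arc `29`). -/
def patternS : Diagram where
  n := 30
  next a := Fin.ofNat 30 (if a.val = 28 then 0 else if a.val = 29 then 29 else a.val + 1)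
  above a := Fin.ofNat 30
    ([24, 23, 10, 9, 8, 7, 27, 5, 4, 3, 2, 21, 20, 19, 18, 17, 0, 15, 14, 13, 12, 11, 2, 1, 0, 6, 7, 6, 16, 29].getD a.val 0)
  sgn a := if a.val ∈ [0, 1, 6, 22, 23, 24, 26, 27] then -1 else 1

/-- An arc of the component `K` of the split link. -/
def patternSK : Fin patternS.n := Fin.ofNat 30 0

/-- The arc of the component `O` of the split link. -/
def patternSO : Fin patternS.n := Fin.ofNat 30 29

namespace Second

instance : Fact (Nat.Prime 29) := ⟨by norm_num⟩

def nextS : Fin 30 → Fin 30 :=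
  ![1, 2, 3, 4, 5, 6, 7, 8, 9, 10, 11, 12, 13, 14, 15, 16, 17, 18, 19, 20, 21, 22, 23, 24, 25, 26, 27, 28, 0, 29]

def aboveS : Fin 30 → Fin 30 :=
  ![24, 23, 10, 9, 8, 7, 27, 5, 4, 3, 2, 21, 20, 19, 18, 17, 0, 15, 14, 13, 12, 11, 2, 1, 0, 6, 7, 6, 16, 29]

def sgnS : Fin 30 → ℤ :=
  ![-1, -1, 1, 1, 1, 1, -1, 1, 1, 1, 1, 1, 1, 1, 1, 1, 1, 1, 1, 1, 1, 1, -1, -1, -1, 1, -1, -1, 1, 1]

theorem nextS_eq (a : Fin 30) : @Eq (Fin 30) (patternS.next a) (nextS a) := by
  fin_cases a <;> rfl
theorem aboveS_eq (a : Fin 30) : @Eq (Fin 30) (patternS.above a) (aboveS a) := by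
  fin_cases a <;> rfl
theorem sgnS_eq (a : Fin 30) : ((patternS.sgn a : ℤˣ) : ℤ) = sgnS a := by fin_cases a <;> rfl

/-- The conjugation relations of a coloured split link. -/
structure SplitRel (u : Fin 30 → G) : Prop where
  f0 : u 0 = (u 24)⁻¹ * u 1 * u 24
  f1 : u 1 = (u 23)⁻¹ * u 2 * u 23
  f2 : u 3 = (u 10)⁻¹ * u 2 * u 10
  f3 : u 4 = (u 9)⁻¹ * u 3 * u 9
  f4 : u 5 = (u 8)⁻¹ * u 4 * u 8
  f5 : u 6 = (u 7)⁻¹ * u 5 * u 7
  f6 : u 6 = (u 27)⁻¹ * u 7 * u 27
  f7 : u 8 = (u 5)⁻¹ * u 7 * u 5
  f8 : u 9 = (u 4)⁻¹ * u 8 * u 4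
  f9 : u 10 = (u 3)⁻¹ * u 9 * u 3
  f10 : u 11 = (u 2)⁻¹ * u 10 * u 2
  f11 : u 12 = (u 21)⁻¹ * u 11 * u 21
  f12 : u 13 = (u 20)⁻¹ * u 12 * u 20
  f13 : u 14 = (u 19)⁻¹ * u 13 * u 19
  f14 : u 15 = (u 18)⁻¹ * u 14 * u 18
  f15 : u 16 = (u 17)⁻¹ * u 15 * u 17
  f16 : u 17 = (u 0)⁻¹ * u 16 * u 0
  f17 : u 18 = (u 15)⁻¹ * u 17 * u 15
  f18 : u 19 = (u 14)⁻¹ * u 18 * u 14
  f19 : u 20 = (u 13)⁻¹ * u 19 * u 13
  f20 : u 21 = (u 12)⁻¹ * u 20 * u 12
  f21 : u 22 = (u 11)⁻¹ * u 21 * u 11
  f22 : u 22 = (u 2)⁻¹ * u 23 * u 2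
  f23 : u 23 = (u 1)⁻¹ * u 24 * u 1
  f24 : u 24 = (u 0)⁻¹ * u 25 * u 0
  f25 : u 26 = (u 6)⁻¹ * u 25 * u 6
  f26 : u 26 = (u 7)⁻¹ * u 27 * u 7
  f27 : u 27 = (u 6)⁻¹ * u 28 * u 6
  f28 : u 0 = (u 16)⁻¹ * u 28 * u 16

theorem splitRel_of_isCol (u : Fin 30 → G) (h : patternS.IsCol u) : SplitRel u := by
  have g : ∀ a : Fin 30, u (nextS a) = u (aboveS a) ^ (-(sgnS a : ℤ)) * u a *
      u (aboveS a) ^ (sgnS a : ℤ) := by
    intro a
    rw [← nextS_eq, ← aboveS_eq, ← sgnS_eq]
    exact h a
  constructor
  · have := g 0; simp [nextS, aboveS, sgnS] at this; rw [this]; group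
  · have := g 1; simp [nextS, aboveS, sgnS] at this; rw [this]; group
  · have := g 2; simp [nextS, aboveS, sgnS] at this; exact this
  · have := g 3; simp [nextS, aboveS, sgnS] at this; exact this
  · have := g 4; simp [nextS, aboveS, sgnS] at this; exact this
  · have := g 5; simp [nextS, aboveS, sgnS] at this; exact this
  · have := g 6; simp [nextS, aboveS, sgnS] at this; rw [this]; group
  · have := g 7; simp [nextS, aboveS, sgnS] at this; exact this
  · have := g 8; simp [nextS, aboveS, sgnS] at this; exact this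
  · have := g 9; simp [nextS, aboveS, sgnS] at this; exact this
  · have := g 10; simp [nextS, aboveS, sgnS] at this; exact this
  · have := g 11; simp [nextS, aboveS, sgnS] at this; exact this
  · have := g 12; simp [nextS, aboveS, sgnS] at this; exact this
  · have := g 13; simp [nextS, aboveS, sgnS] at this; exact this
  · have := g 14; simp [nextS, aboveS, sgnS] at this; exact this
  · have := g 15; simp [nextS, aboveS, sgnS] at this; exact this
  · have := g 16; simp [nextS, aboveS, sgnS] at this; exact this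
  · have := g 17; simp [nextS, aboveS, sgnS] at this; exact this
  · have := g 18; simp [nextS, aboveS, sgnS] at this; exact this
  · have := g 19; simp [nextS, aboveS, sgnS] at this; exact this
  · have := g 20; simp [nextS, aboveS, sgnS] at this; exact this
  · have := g 21; simp [nextS, aboveS, sgnS] at this; exact this
  · have := g 22; simp [nextS, aboveS, sgnS] at this; rw [this]; group
  · have := g 23; simp [nextS, aboveS, sgnS] at this; rw [this]; group
  · have := g 24; simp [nextS, aboveS, sgnS] at this; rw [this]; group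
  · have := g 25; simp [nextS, aboveS, sgnS] at this; exact this
  · have := g 26; simp [nextS, aboveS, sgnS] at this; rw [this]; group
  · have := g 27; simp [nextS, aboveS, sgnS] at this; rw [this]; group
  · have := g 28; simp [nextS, aboveS, sgnS] at this; exact this

theorem isCol_of_splitRel (u : Fin 30 → G) (h : SplitRel u) : patternS.IsCol u := by
  have g : ∀ a : Fin 30, u (nextS a) = u (aboveS a) ^ (-(sgnS a : ℤ)) * u a *
      u (aboveS a) ^ (sgnS a : ℤ) := by
    intro a
    fin_cases a
    · have := h.f0; simp [nextS, aboveS, sgnS]; rw [this]; group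
    · have := h.f1; simp [nextS, aboveS, sgnS]; rw [this]; group
    · simpa [nextS, aboveS, sgnS] using h.f2
    · simpa [nextS, aboveS, sgnS] using h.f3
    · simpa [nextS, aboveS, sgnS] using h.f4
    · simpa [nextS, aboveS, sgnS] using h.f5
    · have := h.f6; simp [nextS, aboveS, sgnS]; rw [this]; group
    · simpa [nextS, aboveS, sgnS] using h.f7
    · simpa [nextS, aboveS, sgnS] using h.f8
    · simpa [nextS, aboveS, sgnS] using h.f9
    · simpa [nextS, aboveS, sgnS] using h.f10
    · simpa [nextS, aboveS, sgnS] using h.f11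
    · simpa [nextS, aboveS, sgnS] using h.f12
    · simpa [nextS, aboveS, sgnS] using h.f13
    · simpa [nextS, aboveS, sgnS] using h.f14
    · simpa [nextS, aboveS, sgnS] using h.f15
    · simpa [nextS, aboveS, sgnS] using h.f16
    · simpa [nextS, aboveS, sgnS] using h.f17
    · simpa [nextS, aboveS, sgnS] using h.f18
    · simpa [nextS, aboveS, sgnS] using h.f19
    · simpa [nextS, aboveS, sgnS] using h.f20
    · simpa [nextS, aboveS, sgnS] using h.f21
    · have := h.f22; simp [nextS, aboveS, sgnS]; rw [this]; group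
    · have := h.f23; simp [nextS, aboveS, sgnS]; rw [this]; group
    · have := h.f24; simp [nextS, aboveS, sgnS]; rw [this]; group
    · simpa [nextS, aboveS, sgnS] using h.f25
    · have := h.f26; simp [nextS, aboveS, sgnS]; rw [this]; group
    · have := h.f27; simp [nextS, aboveS, sgnS]; rw [this]; group
    · simpa [nextS, aboveS, sgnS] using h.f28
    · simp [nextS, aboveS, sgnS]
  intro a
  change Fin 30 at a
  have h1 := g a
  rw [← nextS_eq a, ← aboveS_eq a, ← sgnS_eq a] at h1
  exact h1

theorem periodS_K : Function.minimalPeriod patternS.next patternSK = 29 := by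
  apply Function.minimalPeriod_eq_prime
  · decide
  · decide

theorem periodS_O : Function.minimalPeriod patternS.next patternSO = 1 := by
  rw [Function.minimalPeriod_eq_one_iff_isFixedPt]
  unfold Function.IsFixedPt
  decide

theorem walkS_K : patternS.walk patternSK =
    ([0, 1, 2, 3, 4, 5, 6, 7, 8, 9, 10, 11, 12, 13, 14, 15, 16, 17, 18, 19, 20, 21, 22, 23, 24,
      25, 26, 27, 28] : List (Fin 30)) := by
  unfold Diagram.walk
  rw [periodS_K]
  rfl

theorem walkS_O : patternS.walk patternSO = ([29] : List (Fin 30)) := by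
  unfold Diagram.walk
  rw [periodS_O]
  rfl

theorem compS_K (b : Fin 30) : patternS.SameComponent patternSK b ↔ b.val < 29 := by
  constructor
  · rintro ⟨i, hi⟩
    have key : ∀ i : ℕ, ((patternS.next^[i] patternSK : Fin 30)).val < 29 := by
      intro i
      induction i with
      | zero => decide
      | succ i ih =>
        rw [Function.iterate_succ_apply']
        revert ih
        generalize (patternS.next^[i] patternSK : Fin 30) = c
        revert c
        decide
    rw [← hi]
    exact key i
  · intro hb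
    refine ⟨b.val, ?_⟩
    fin_cases b <;> first | rfl | exact absurd hb (by decide)

theorem compS_O (b : Fin 30) : patternS.SameComponent patternSO b ↔ 29 ≤ b.val := by
  constructor
  · rintro ⟨i, hi⟩
    have key : ∀ i : ℕ, 29 ≤ ((patternS.next^[i] patternSO : Fin 30)).val := by
      intro i
      induction i with
      | zero => decide
      | succ i ih =>
        rw [Function.iterate_succ_apply']
        revert ih
        generalize (patternS.next^[i] patternSO : Fin 30) = c
        revert c
        decide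
    rw [← hi]
    exact key i
  · intro hb
    refine ⟨b.val - 29, ?_⟩
    fin_cases b <;> first | rfl | exact absurd hb (by decide)

theorem writheS_K : patternS.selfWrithe patternSK = 13 := by
  unfold Diagram.selfWrithe
  rw [walkS_K]
  have h : ∀ b : Fin 30, @decide (patternS.SameComponent patternSK (patternS.above b))
      (Classical.propDecidable _) = decide ((patternS.above b).val < 29) := by
    intro b
    apply Bool.eq_iff_iff.2
    simp only [decide_eq_true_eq]
    exact compS_K _
  have h2 : (fun b : Fin 30 => @decide (patternS.SameComponent patternSK (patternS.above b))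
      (Classical.propDecidable _)) = fun b => decide ((patternS.above b).val < 29) := funext h
  erw [h2]
  decide

theorem writheS_O : patternS.selfWrithe patternSO = 1 := by
  unfold Diagram.selfWrithe
  rw [walkS_O]
  have h : ∀ b : Fin 30, @decide (patternS.SameComponent patternSO (patternS.above b))
      (Classical.propDecidable _) = decide (29 ≤ (patternS.above b).val) := by
    intro b
    apply Bool.eq_iff_iff.2
    simp only [decide_eq_true_eq]
    exact compS_O _
  have h2 : (fun b : Fin 30 => @decide (patternS.SameComponent patternSO (patternS.above b))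
      (Classical.propDecidable _)) = fun b => decide (29 ≤ (patternS.above b).val) := funext h
  erw [h2]
  decide

theorem arcS_term (u : Fin 30 → G) (b : Fin 30) :
    u (patternS.above b) ^ ((patternS.sgn b : ℤˣ) : ℤ) = u (aboveS b) ^ (sgnS b : ℤ) := by
  rw [aboveS_eq, sgnS_eq]

/-- The value of the longitude of `K`. -/
def lamS (u : Fin 30 → G) : G := (((((((((((((((((((((((((((((u 24)⁻¹ * (u 23)⁻¹) * u 10) * u 9) * u 8) * u 7) * (u 27)⁻¹) * u 5) * u 4) * u 3) * u 2) * u 21) * u 20) * u 19) * u 18) * u 17) * u 0) * u 15) * u 14) * u 13) * u 12) * u 11) * (u 2)⁻¹) * (u 1)⁻¹) * (u 0)⁻¹) * u 6) * (u 7)⁻¹) * (u 6)⁻¹) * u 16) * u 0 ^ (-(13 : ℤ))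

theorem lonValS_K (u : Fin 30 → G) : patternS.lonVal u patternSK = lamS u := by
  have h : (fun b : Fin 30 => u (patternS.above b) ^ ((patternS.sgn b : ℤˣ) : ℤ)) =
      fun b => u (aboveS b) ^ (sgnS b : ℤ) := funext (arcS_term u)
  have h1 : (List.map (fun b : Fin 30 => u (patternS.above b) ^ ((patternS.sgn b : ℤˣ) : ℤ))
      [0, 1, 2, 3, 4, 5, 6, 7, 8, 9, 10, 11, 12, 13, 14, 15, 16, 17, 18, 19, 20, 21, 22, 23, 24,
        25, 26, 27, 28]).prod = (u 24 ^ (-1 : ℤ) * (u 23 ^ (-1 : ℤ) * (u 10 ^ (1 : ℤ) * (u 9 ^ (1 : ℤ) * (u 8 ^ (1 : ℤ) * (u 7 ^ (1 : ℤ) * (u 27 ^ (-1 : ℤ) * (u 5 ^ (1 : ℤ) * (u 4 ^ (1 : ℤ) * (u 3 ^ (1 : ℤ) * (u 2 ^ (1 : ℤ) * (u 21 ^ (1 : ℤ) * (u 20 ^ (1 : ℤ) * (u 19 ^ (1 : ℤ) * (u 18 ^ (1 : ℤ) * (u 17 ^ (1 : ℤ) * (u 0 ^ (1 : ℤ) * (u 15 ^ (1 : ℤ) * (u 14 ^ (1 : ℤ) * (u 13 ^ (1 : ℤ) * (u 12 ^ (1 : ℤ) * (u 11 ^ (1 : ℤ) * (u 2 ^ (-1 : ℤ) * (u 1 ^ (-1 : ℤ) * (u 0 ^ (-1 : ℤ) * (u 6 ^ (1 : ℤ) * (u 7 ^ (-1 : ℤ) * (u 6 ^ (-1 : ℤ) * (u 16 ^ (1 : ℤ) * (1)))))))))))))))))))))))))))))) := by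
    rw [h]
    rfl
  have h3 := lonVal_eq (D := patternS) u patternSK _ _ _ walkS_K writheS_K h1
  have h2 : u patternSK = u 0 := rfl
  rw [h2] at h3
  rw [h3]
  simp only [lamS, zpow_one, zpow_neg_one, mul_one, mul_assoc]

theorem lonValS_O (u : Fin 30 → G) : patternS.lonVal u patternSO = 1 := by
  have h : (fun b : Fin 30 => u (patternS.above b) ^ ((patternS.sgn b : ℤˣ) : ℤ)) =
      fun b => u (aboveS b) ^ (sgnS b : ℤ) := funext (arcS_term u)
  have h1 : (List.map (fun b : Fin 30 => u (patternS.above b) ^ ((patternS.sgn b : ℤˣ) : ℤ))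
      [29]).prod = u 29 ^ (1 : ℤ) * 1 := by
    rw [h]
    rfl
  have h3 := lonVal_eq (D := patternS) u patternSO _ _ _ walkS_O writheS_O h1
  rw [h3]
  have h2 : u patternSO = u 29 := rfl
  rw [h2]
  group

/-- The colouring of the second pattern given by a colouring of the split link, with the value 1 on
`E`. -/
def lift33 (u : Fin 30 → G) : Fin 33 → G :=
  ![u 0, u 1, u 2, u 2, u 3, u 4, u 5, u 6, u 7, u 8, u 9, u 10, u 11, u 12, u 13, u 14, u 15, u 16, u 17, u 18, u 19, u 20, u 21, u 22, u 22, u 23, u 24, u 25, u 26, u 27, u 28, 1, 1]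

theorem patRel_lift (u : Fin 30 → G) (h : SplitRel u) : PatRel (lift33 u) where
  f0 := by simpa [lift33] using h.f0
  f1 := by simpa [lift33] using h.f1
  f2 := by simp [lift33]
  f3 := by simpa [lift33] using h.f2
  f4 := by simpa [lift33] using h.f3
  f5 := by simpa [lift33] using h.f4
  f6 := by simpa [lift33] using h.f5
  f7 := by simpa [lift33] using h.f6
  f8 := by simpa [lift33] using h.f7
  f9 := by simpa [lift33] using h.f8
  f10 := by simpa [lift33] using h.f9
  f11 := by simpa [lift33] using h.f10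
  f12 := by simpa [lift33] using h.f11
  f13 := by simpa [lift33] using h.f12
  f14 := by simpa [lift33] using h.f13
  f15 := by simpa [lift33] using h.f14
  f16 := by simpa [lift33] using h.f15
  f17 := by simpa [lift33] using h.f16
  f18 := by simpa [lift33] using h.f17
  f19 := by simpa [lift33] using h.f18
  f20 := by simpa [lift33] using h.f19
  f21 := by simpa [lift33] using h.f20
  f22 := by simpa [lift33] using h.f21
  f23 := by simp [lift33]
  f24 := by simpa [lift33] using h.f22
  f25 := by simpa [lift33] using h.f23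
  f26 := by simpa [lift33] using h.f24
  f27 := by simpa [lift33] using h.f25
  f28 := by simpa [lift33] using h.f26
  f29 := by simpa [lift33] using h.f27
  f30 := by simpa [lift33] using h.f28
  f31 := by simp [lift33]
  f32 := by simp [lift33]

theorem lam_lift (u : Fin 30 → G) : lamB (lift33 u) = lamS u := by
  simp [lamB, lamS, lift33]

theorem keyS (u : Fin 30 → G) (h : patternS.IsCol u)
    (hl : u 0 * u 0 = patternS.lonVal u patternSK) : u 0 * u 0 = 1 := by
  have hr := splitRel_of_isCol u h
  have hc : patternB.IsCol (lift33 u) := isCol_of_patRel _ (patRel_lift u hr)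
  have h0 : lift33 u 0 = u 0 := rfl
  have h31 : lift33 u 31 = 1 := rfl
  have key := keyR (lift33 u) hc (fun _ => h31) (by
    rw [lonVal_K, lam_lift, h0, hl, lonValS_K])
  rwa [h0] at key

/-- A colouring of the split link with `μ ^ 2 * λ = 1`, `μ ^ 2 ≠ 1`. -/
def colS (i : Fin 30) : G :=
  toG ([3383, 337, 1147, 169, 848, 2724, 584, 3068, 2988, 1938, 992, 73, 2932, 1307, 3383, 3918, 3694, 584, 2477, 1762, 4006, 3183, 3407, 2652, 169, 2213, 824, 337, 2477, 513].getD i.val 0)

theorem colS_rel : SplitRel colS where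
  f0 := code_inj (by rw [code_cj]; decide +kernel)
  f1 := code_inj (by rw [code_cj]; decide +kernel)
  f2 := code_inj (by rw [code_cj]; decide +kernel)
  f3 := code_inj (by rw [code_cj]; decide +kernel)
  f4 := code_inj (by rw [code_cj]; decide +kernel)
  f5 := code_inj (by rw [code_cj]; decide +kernel)
  f6 := code_inj (by rw [code_cj]; decide +kernel)
  f7 := code_inj (by rw [code_cj]; decide +kernel)
  f8 := code_inj (by rw [code_cj]; decide +kernel)
  f9 := code_inj (by rw [code_cj]; decide +kernel)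
  f10 := code_inj (by rw [code_cj]; decide +kernel)
  f11 := code_inj (by rw [code_cj]; decide +kernel)
  f12 := code_inj (by rw [code_cj]; decide +kernel)
  f13 := code_inj (by rw [code_cj]; decide +kernel)
  f14 := code_inj (by rw [code_cj]; decide +kernel)
  f15 := code_inj (by rw [code_cj]; decide +kernel)
  f16 := code_inj (by rw [code_cj]; decide +kernel)
  f17 := code_inj (by rw [code_cj]; decide +kernel)
  f18 := code_inj (by rw [code_cj]; decide +kernel)
  f19 := code_inj (by rw [code_cj]; decide +kernel)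
  f20 := code_inj (by rw [code_cj]; decide +kernel)
  f21 := code_inj (by rw [code_cj]; decide +kernel)
  f22 := code_inj (by rw [code_cj]; decide +kernel)
  f23 := code_inj (by rw [code_cj]; decide +kernel)
  f24 := code_inj (by rw [code_cj]; decide +kernel)
  f25 := code_inj (by rw [code_cj]; decide +kernel)
  f26 := code_inj (by rw [code_cj]; decide +kernel)
  f27 := code_inj (by rw [code_cj]; decide +kernel)
  f28 := code_inj (by rw [code_cj]; decide +kernel)

theorem colS_isCol : patternS.IsCol colS := isCol_of_splitRel _ colS_rel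

theorem colS_K : colS 0 * colS 0 * patternS.lonVal colS patternSK = 1 := by
  rw [lonValS_K]
  apply code_inj
  unfold lamS
  rw [code_mul, code_mul (_ : G) (colS 0 ^ (-(13 : ℤ))), code_inv13]
  simp only [code_mul, code_inv, code_one]
  decide +kernel

theorem colS_sq : colS 0 * colS 0 ≠ 1 := by
  intro h
  have := congrArg code h
  rw [code_mul, code_one] at this
  revert this
  decide +kernel

theorem colS_29 : colS 29 = 1 := code_inj (by rw [code_one]; decide +kernel)

end Second

/-- The split link separates the slopes `2` and `-2`, for every `f`. -/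
theorem separates_split (f : ℤ) : Separates Second.G patternS patternSK patternSO f := by
  have h29 : patternS.lonVal Second.colS patternSO = 1 := Second.lonValS_O _
  refine separates_mk patternS patternSK patternSO f (fun ρ h1 _ h3 => Second.keyS ρ h1 h3)
    Second.colS Second.colS_isCol Second.colS_K Second.colS_sq ?_
  rw [h29, one_zpow]
  exact Second.colS_29

end Vale.Agent.P258
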